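import Vale.Agent.P146.H765.Psd

/-!
Row F0 of plan R2 for a layered base, with the touch term kept on the left side, and with its
lower bound by the covariance of the forms `s' Q s` and `s' C s`.
-/

open MeasureTheory ProbabilityTheory

namespace Vale.Agent.P146.H765

open Vale.Agent.P157.Lv Vale.Agent.P146.H425 Vale.Agent.P146.H325 Vale.Agent.P146.H332
  Vale.Agent.P146.H712 Vale.Agent.P146.H816 Vale.Agent.P146.R1 Vale.Agent.P146.R1C Matrix
  Vale.Agent.P146.R1S Vale.Agent.P146.H693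
open Vale.Agent.P146.H499 (Zm)

set_option linter.unusedSectionVars false

variable {n : ℕ} {k x : ℝ} {S : CS n k x} {t2 : ℝ} {m σ : ℕ → ℝ}

/-- **F0 with the touch term.** -/
theorem F0R_keep (N : ℕ) (hm : Pm m N) (ht : 0 < t2) {c r : ℝ} (hr : 0 ≤ r) :
    2 * c * ∫ g, (Rp S t2 m σ (QR S t2 m σ N (c • g)) N (c • g) +
      Tl S t2 m σ (Tt S t2 (QR S t2 m σ N (c • g))) N (c • g)) ∂(gI (Pair n)) ≤
      (2 * √n + r) * ∫ g, fr (QR S t2 m σ N (c • g)) ∂(gI (Pair n)) +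
        (n : ℝ) ^ 4 * n * Real.exp (-(r ^ 2 / 16)) := by
  have h1 : ∀ g : Pair n → ℝ, Rp S t2 m σ (QR S t2 m σ N (c • g)) N (c • g) +
      Tl S t2 m σ (Tt S t2 (QR S t2 m σ N (c • g))) N (c • g) =
      Rr S t2 m σ (QR S t2 m σ N (c • g)) N (c • g) := fun g =>
    (Rr_eq (QR S t2 m σ N (c • g)) ht N hm (c • g)).symm
  simp only [h1]
  rw [← ibp_QR N hm ht c]
  have e0 : ∀ i j, EG fun g : Pair n → ℝ => QR S t2 m σ N (c • g) i j := fun i j =>
    eg_scale (eg_QR N hm i j) c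
  have hM : ∀ g : Pair n → ℝ, Psd (QR S t2 m σ N (c • g) * QR S t2 m σ N (c • g)) :=
    fun g => sq_psd fun i j => QR_comm N (c • g) i j
  have hE : ∀ i j, EG fun g : Pair n → ℝ =>
      (QR S t2 m σ N (c • g) * QR S t2 m σ N (c • g)) i j := by
    intro i j
    simp only [Matrix.mul_apply]
    exact EG.sum _ fun l _ => (e0 i l).mul (e0 l j)
  have hT : ∀ g : Pair n → ℝ, (QR S t2 m σ N (c • g) * QR S t2 m σ N (c • g)).trace =
      fr (QR S t2 m σ N (c • g)) := fun g => sq_trace fun i j => QR_comm N (c • g) i j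
  have hK : ∀ g : Pair n → ℝ, (QR S t2 m σ N (c • g) * QR S t2 m σ N (c • g)).trace ≤
      (n : ℝ) ^ 4 := by
    intro g
    rw [hT]
    unfold fr
    have h3 : ∀ i j, QR S t2 m σ N (c • g) i j ^ 2 ≤ (n : ℝ) ^ 2 := by
      intro i j
      rw [← sq_abs]
      exact pow_le_pow_left₀ (abs_nonneg _) (abs_QR N hm (c • g) i j) 2
    refine (Finset.sum_le_sum fun i _ => Finset.sum_le_sum fun j _ => h3 i j).trans ?_
    simp only [Finset.sum_const, Finset.card_univ, Fintype.card_fin, nsmul_eq_mul]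
    exact le_of_eq (by ring)
  have h4 := H499.edge hM hE hK hr
  simp only [hT] at h4
  exact h4

/-- the covariance of the forms `s' M s` and `s' C s` under the root law, with the mean `tr (M C C C)`
instead of the product of the means -/
def cvT (S : CS n k x) (t : ℝ) (M : Matrix (Fin n) (Fin n) ℝ) (u : Pair n → ℝ) : ℝ :=
  ∑ τ, S.mu t u τ * (qs M τ * qs (S.A t u) τ) - T3 S t M u

lemma cvT_eq (t : ℝ) (M : Matrix (Fin n) (Fin n) ℝ) (u : Pair n → ℝ) :
    cvT S t M u = ∑ i, ∑ j, M i j * ((∑ τ, pr i j τ * (S.mu t u τ * qs (S.A t u) τ)) -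
      (S.A t u * S.A t u * S.A t u) i j) := by
  unfold cvT T3
  have e1 : ∑ τ, S.mu t u τ * (qs M τ * qs (S.A t u) τ) =
      ∑ i, ∑ j, M i j * ∑ τ, pr i j τ * (S.mu t u τ * qs (S.A t u) τ) := by
    have e2 : ∀ τ, S.mu t u τ * (qs M τ * qs (S.A t u) τ) =
        ∑ i, ∑ j, M i j * (pr i j τ * (S.mu t u τ * qs (S.A t u) τ)) := by
      intro τ
      unfold qs
      rw [Finset.sum_mul, Finset.mul_sum]
      refine Finset.sum_congr rfl fun i _ => ?_
      rw [Finset.sum_mul, Finset.mul_sum]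
      exact Finset.sum_congr rfl fun j _ => by ring
    simp only [e2]
    rw [Finset.sum_comm]
    refine Finset.sum_congr rfl fun i _ => ?_
    rw [Finset.sum_comm]
    exact Finset.sum_congr rfl fun j _ => (Finset.mul_sum _ _ _).symm
  rw [e1, ← Finset.sum_sub_distrib]
  refine Finset.sum_congr rfl fun i _ => ?_
  rw [← Finset.sum_sub_distrib]
  exact Finset.sum_congr rfl fun j _ => by ring

lemma eg_qs (t : ℝ) (τ : Fin n → ℤˣ) : EG fun u : Pair n → ℝ => qs (S.A t u) τ :=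
  EG.sum _ fun i _ => EG.sum _ fun j _ => (S.eg_A t i j).mul (EG.const _)

/-- the entries of the covariance form -/
def cvE (S : CS n k x) (t : ℝ) (i j : Fin n) (u : Pair n → ℝ) : ℝ :=
  (∑ τ, pr i j τ * (S.mu t u τ * qs (S.A t u) τ)) - (S.A t u * S.A t u * S.A t u) i j

lemma eg_cvE (t : ℝ) (i j : Fin n) : EG (cvE S t i j) := by
  refine EG.sub (EG.sum _ fun τ _ => ((S.eg_mu t τ).mul (eg_qs t τ)).const_mul _) ?_
  simp only [Matrix.mul_apply]
  exact EG.sum _ fun b _ => (EG.sum _ fun l _ => (S.eg_A t i l).mul (S.eg_A t l b)).mul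
    (S.eg_A t b j)

lemma cvT_sum (t : ℝ) (M : Matrix (Fin n) (Fin n) ℝ) (u : Pair n → ℝ) :
    cvT S t M u = ∑ i, ∑ j, (fun p q => M p q) i j * cvE S t i j u := cvT_eq t M u

lemma eg_cvT (t : ℝ) (M : Matrix (Fin n) (Fin n) ℝ) : EG (cvT S t M) := by
  rw [show cvT S t M = fun u => ∑ i, ∑ j, M i j * cvE S t i j u from
    funext fun u => cvT_sum t M u]
  exact EG.sum _ fun i _ => EG.sum _ fun j _ => (eg_cvE t i j).const_mul _

lemma Tl_two (N : ℕ) (hm : Pm m N) (f : Fin n → Fin n → ℝ) (z : Pair n → ℝ) :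
    Tl S t2 m σ (fun u => ∑ i, ∑ j, f i j * cvE S t2 i j u) N z =
      ∑ i, ∑ j, f i j * Tl S t2 m σ (cvE S t2 i j) N z := by
  unfold Tl
  rw [TP_sum hU _ (fun i _ => EG.sum _ fun j _ => (eg_cvE t2 i j).const_mul _) N hm]
  refine Finset.sum_congr rfl fun i _ => ?_
  rw [TP_sum hU _ (fun j _ => (eg_cvE t2 i j).const_mul _) N hm]
  refine Finset.sum_congr rfl fun j _ => ?_
  rw [TD_const_mul]

lemma Tl_cvT (N : ℕ) (hm : Pm m N) (M : Matrix (Fin n) (Fin n) ℝ) (z : Pair n → ℝ) :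
    Tl S t2 m σ (cvT S t2 M) N z = ∑ i, ∑ j, M i j * Tl S t2 m σ (cvE S t2 i j) N z := by
  rw [show cvT S t2 M = fun u => ∑ i, ∑ j, (fun p q => M p q) i j * cvE S t2 i j u from
    funext fun u => cvT_sum t2 M u]
  exact Tl_two N hm (fun p q => M p q) z

lemma eg_bcvT (N : ℕ) (hm : Pm m N) :
    EG fun z => Tl S t2 m σ (cvT S t2 (QR S t2 m σ N z)) N z := by
  rw [show (fun z => Tl S t2 m σ (cvT S t2 (QR S t2 m σ N z)) N z) = fun z =>
      ∑ i, ∑ j, QR S t2 m σ N z i j * Tl S t2 m σ (cvE S t2 i j) N z from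
    funext fun z => Tl_cvT N hm (QR S t2 m σ N z) z]
  exact EG.sum _ fun i _ => EG.sum _ fun j _ =>
    (eg_QR N hm i j).mul (eg_Tl (eg_cvE t2 i j) N hm)

/-- the mean of the touch term dominates the mean of the covariance form -/
theorem Tl_ge (hv : Kv S) (N : ℕ) (hm : Pm m N) (ht : 0 < t2) {M : Matrix (Fin n) (Fin n) ℝ}
    (hM : Psd M) (z : Pair n → ℝ) :
    k * x * Tl S t2 m σ (cvT S t2 M) N z ≤ Tl S t2 m σ (Tt S t2 M) N z := by
  have h1 : 0 ≤ Tl S t2 m σ (fun u => Tt S t2 M u + (-(k * x)) * cvT S t2 M u) N z :=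
    TP_nonneg (fun u => by
      have := Tt_ge hv ht u hM
      unfold cvT
      linarith) N z
  unfold Tl at *
  rw [TP_add hU (eg_Tt S t2 M) ((eg_cvT t2 M).const_mul _) N hm, TD_const_mul] at h1
  simp only at h1
  linarith

/-- **F0 with the covariance of the forms `s' Q s` and `s' C s`.** -/
theorem F0R_cov (hv : Kv S) (N : ℕ) (hm : Pm m N) (ht : 0 < t2) {c r : ℝ} (hc : 0 ≤ c)
    (hr : 0 ≤ r) :
    2 * c * (∫ g, Rp S t2 m σ (QR S t2 m σ N (c • g)) N (c • g) ∂(gI (Pair n)) +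
      k * x * ∫ g, Tl S t2 m σ (cvT S t2 (QR S t2 m σ N (c • g))) N (c • g) ∂(gI (Pair n))) ≤
      (2 * √n + r) * ∫ g, fr (QR S t2 m σ N (c • g)) ∂(gI (Pair n)) +
        (n : ℝ) ^ 4 * n * Real.exp (-(r ^ 2 / 16)) := by
  refine le_trans ?_ (F0R_keep N hm ht hr)
  refine mul_le_mul_of_nonneg_left ?_ (by positivity)
  rw [← integral_const_mul, ← integral_add (eg_scale (eg_bRp N hm ht) c).integrable
    ((eg_scale (eg_bcvT N hm) c).const_mul _).integrable]
  refine integral_mono ((eg_scale (eg_bRp N hm ht) c).add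
    ((eg_scale (eg_bcvT N hm) c).const_mul _)).integrable
    ((eg_scale (eg_bRp N hm ht) c).add (eg_scale (eg_bTt N hm) c)).integrable fun g => ?_
  simp only
  have := Tl_ge (σ := σ) hv N hm ht (QR_psd (S := S) (t2 := t2) (m := m) (σ := σ) N hm (c • g)) (c • g)
  linarith

end Vale.Agent.P146.H765
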