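import Vale.Agent.P146.H693.R3
import Vale.Agent.P146.H645.SkCS
import Vale.Agent.P146.H713.DeepCS

/-!
Row (A3), leaf A3b: the covariance bound (Kov) as a form, and the lower bound of the touch term of
the row F0 which it gives.
-/

open MeasureTheory ProbabilityTheory

namespace Vale.Agent.P146.H765

open Vale.Agent.P157.Lv Vale.Agent.P146.H425 Vale.Agent.P146.H325 Vale.Agent.P146.H332
  Vale.Agent.P146.H712 Vale.Agent.P146.H816 Vale.Agent.P146.R1 Vale.Agent.P146.R1C Matrix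
  Vale.Agent.P146.R1S Vale.Agent.P146.H693

set_option linter.unusedSectionVars false

variable {n : ℕ} {k x : ℝ}

/-- (Kov) as a form: the Hessian of the value function dominates `k x` times the covariance of the
pairs under the root law. -/
def Kv (S : CS n k x) : Prop := ∀ s : ℝ, 0 < s → ∀ z w : Pair n → ℝ,
  k * x * ∑ e : Pair n, ∑ f : Pair n, w e * w f * (S.T4 s z e.1.1 e.1.2 f.1.1 f.1.2 -
    S.A s z e.1.1 e.1.2 * S.A s z f.1.1 f.1.2) ≤
  ∑ e : Pair n, ∑ f : Pair n, w e * w f * S.DA s e z f.1.1 f.1.2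

/-! ### the SK model -/

lemma DC_form (s : ℝ) (e : Pair n) (z : Pair n → ℝ) (i j : Fin n) :
    DC k x s e z i j = k * (R1C.T4 k x s z i j e.1.1 e.1.2 - (1 - x) * RR k SkS x (cf s)
      (fun u => H325.av k SkS (pr i j) u * H325.av k SkS (pr e.1.1 e.1.2) u) z -
      x * (AA k x s z i j * AA k x s z e.1.1 e.1.2)) := by
  have h0 : DC k x s e z i j = RR k SkS x (cf s) (av' k SkS x (pr i j) e) z -
    RR k SkS x (cf s) (H325.av k SkS (pr i j)) z * RR k SkS x (cf s) (one' k SkS x e) z := rfl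
  have h1 : (av' k SkS x (pr i j) e : (Pair n → ℝ) → ℝ) = fun u => k *
      (H325.av k SkS (fun σ => pr i j σ * pr e.1.1 e.1.2 σ) u - (1 - x) * (H325.av k SkS (pr i j) u *
        H325.av k SkS (pr e.1.1 e.1.2) u)) := rfl
  have h2 : (one' k SkS x e : (Pair n → ℝ) → ℝ) =
      fun u => k * x * H325.av k SkS (pr e.1.1 e.1.2) u := rfl
  rw [h0, h1, h2, H522.RR_const_mul, H522.RR_sub k SkS x _ (eg_av k SkS _)
    (((eg_av k SkS _).mul (eg_av k SkS _)).const_mul _), H522.RR_const_mul, H522.RR_const_mul]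
  unfold R1C.T4 AA
  ring

theorem kv_sk (n : ℕ) {k x : ℝ} (hk : 0 < k) (hx : 0 < x) (hx1 : x ≤ 1) :
    Kv (skCS n hk hx hx1) := by
  intro s _ z w
  show k * x * ∑ e : Pair n, ∑ f : Pair n, w e * w f * (R1C.T4 k x s z e.1.1 e.1.2 f.1.1 f.1.2 -
    AA k x s z e.1.1 e.1.2 * AA k x s z f.1.1 f.1.2) ≤
      ∑ e : Pair n, ∑ f : Pair n, w e * w f * DC k x s e z f.1.1 f.1.2
  set N : Pair n → Pair n → ℝ := fun e f => RR k SkS x (cf s)
      (fun u => H325.av k SkS (pr f.1.1 f.1.2) u * H325.av k SkS (pr e.1.1 e.1.2) u) z with hN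
  have hT : ∀ e f : Pair n, R1C.T4 k x s z f.1.1 f.1.2 e.1.1 e.1.2 =
      R1C.T4 k x s z e.1.1 e.1.2 f.1.1 f.1.2 := by
    intro e f
    unfold R1C.T4
    congr 2
    funext σ
    exact mul_comm _ _
  have h1 : ∑ e : Pair n, ∑ f : Pair n, w e * w f * DC k x s e z f.1.1 f.1.2 -
      k * x * ∑ e : Pair n, ∑ f : Pair n, w e * w f * (R1C.T4 k x s z e.1.1 e.1.2 f.1.1 f.1.2 -
        AA k x s z e.1.1 e.1.2 * AA k x s z f.1.1 f.1.2) = k * (1 - x) *
      ∑ e : Pair n, ∑ f : Pair n, w e * w f * (R1C.T4 k x s z e.1.1 e.1.2 f.1.1 f.1.2 -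
        N e f) := by
    simp only [Finset.mul_sum]
    rw [← Finset.sum_sub_distrib]
    refine Finset.sum_congr rfl fun e _ => ?_
    rw [← Finset.sum_sub_distrib]
    refine Finset.sum_congr rfl fun f _ => ?_
    rw [DC_form, hT e f]
    ring
  have h2 : 0 ≤ ∑ e : Pair n, ∑ f : Pair n, w e * w f *
      (R1C.T4 k x s z e.1.1 e.1.2 f.1.1 f.1.2 - N e f) := by
    have e1 : (fun u : Pair n → ℝ => H325.av k SkS (fun σ => (∑ e : Pair n, w e * pr e.1.1 e.1.2 σ) ^ 2) u
        - H325.av k SkS (fun σ => ∑ e : Pair n, w e * pr e.1.1 e.1.2 σ) u ^ 2) = fun u =>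
        ∑ e : Pair n, ∑ f : Pair n, (w e * w f) *
          (H325.av k SkS (fun σ => pr e.1.1 e.1.2 σ * pr f.1.1 f.1.2 σ) u -
            H325.av k SkS (pr f.1.1 f.1.2) u * H325.av k SkS (pr e.1.1 e.1.2) u) := by
      funext u
      have a1 : H325.av k SkS (fun σ => ∑ e : Pair n, w e * pr e.1.1 e.1.2 σ) u =
          ∑ e : Pair n, w e * H325.av k SkS (pr e.1.1 e.1.2) u := by
        rw [av_sum]
        exact Finset.sum_congr rfl fun e _ => av_mul k SkS _ _ u
      have a2 : (fun σ : Fin n → ℤˣ => (∑ e : Pair n, w e * pr e.1.1 e.1.2 σ) ^ 2) = fun σ =>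
          ∑ e : Pair n, ∑ f : Pair n, (w e * w f) * (pr e.1.1 e.1.2 σ * pr f.1.1 f.1.2 σ) := by
        funext σ
        rw [pow_two, Finset.sum_mul_sum]
        exact Finset.sum_congr rfl fun e _ => Finset.sum_congr rfl fun f _ => by ring
      rw [a1, a2, av_sum, pow_two, Finset.sum_mul_sum, ← Finset.sum_sub_distrib]
      refine Finset.sum_congr rfl fun e _ => ?_
      rw [av_sum, ← Finset.sum_sub_distrib]
      refine Finset.sum_congr rfl fun f _ => ?_
      rw [av_mul]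
      ring
    have e2 : RR k SkS x (cf s) (fun u : Pair n → ℝ =>
        H325.av k SkS (fun σ => (∑ e : Pair n, w e * pr e.1.1 e.1.2 σ) ^ 2) u
        - H325.av k SkS (fun σ => ∑ e : Pair n, w e * pr e.1.1 e.1.2 σ) u ^ 2) z =
        ∑ e : Pair n, ∑ f : Pair n, w e * w f *
          (R1C.T4 k x s z e.1.1 e.1.2 f.1.1 f.1.2 - N e f) := by
      rw [e1, R1S.RR_sum _ _ fun e _ => EG.sum _ fun f _ => ((eg_av k SkS _).sub
        ((eg_av k SkS _).mul (eg_av k SkS _))).const_mul _]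
      refine Finset.sum_congr rfl fun e _ => ?_
      rw [R1S.RR_sum _ _ fun f _ => ((eg_av k SkS _).sub
        ((eg_av k SkS _).mul (eg_av k SkS _))).const_mul _]
      refine Finset.sum_congr rfl fun f _ => ?_
      rw [H522.RR_const_mul, H522.RR_sub k SkS x _ (eg_av k SkS _)
        ((eg_av k SkS _).mul (eg_av k SkS _))]
      rfl
    rw [← e2]
    unfold RR
    refine div_nonneg ?_ (DD_pos k SkS x (cf s) z).le
    unfold PP
    exact integral_nonneg fun g => mul_nonneg (Real.exp_pos _).le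
      (sub_nonneg.2 (av_sq_le k SkS _ _))
  have h3 : 0 ≤ k * (1 - x) := mul_nonneg hk.le (by linarith)
  have h4 := mul_nonneg h3 h2
  rw [← h1] at h4
  linarith

theorem kv_deep (n : ℕ) {k : ℝ} (hk : 0 < k) {m : ℕ → ℝ} (σ : ℕ → ℝ) {J : ℕ} {x : ℝ}
    (hE : Exs m J x) : Kv (deepCS n hk σ hE) := by
  intro s _ z w
  show k * x * ∑ e : Pair n, ∑ f : Pair n, w e * w f *
    (pA k SkS m σ J x s (fun τ => pr e.1.1 e.1.2 τ * pr f.1.1 f.1.2 τ) z -
      pA k SkS m σ J x s (pr e.1.1 e.1.2) z * pA k SkS m σ J x s (pr f.1.1 f.1.2) z) ≤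
      ∑ e : Pair n, ∑ f : Pair n, w e * w f *
        (k * pK k SkS m σ J x s (pr f.1.1 f.1.2) (SkS e) z)
  have h := (pK_kov (k := k) (S := SkS (n := n)) (m := m) (σ := σ) (J := J) (t := s) hE
    (fun τ => ∑ e : Pair n, w e * pr e.1.1 e.1.2 τ) z).1
  rw [pK_bil hE Finset.univ Finset.univ w w (fun (e : Pair n) τ => pr e.1.1 e.1.2 τ)
    (fun (e : Pair n) τ => pr e.1.1 e.1.2 τ)] at h
  have e1 : pA k SkS m σ J x s (fun τ => (∑ e : Pair n, w e * pr e.1.1 e.1.2 τ) *
      ∑ e : Pair n, w e * pr e.1.1 e.1.2 τ) z = ∑ e : Pair n, ∑ f : Pair n, w e * w f *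
        pA k SkS m σ J x s (fun τ => pr e.1.1 e.1.2 τ * pr f.1.1 f.1.2 τ) z := by
    have e2 : (fun τ => (∑ e : Pair n, w e * pr e.1.1 e.1.2 τ) *
        ∑ e : Pair n, w e * pr e.1.1 e.1.2 τ) = fun τ => ∑ e : Pair n,
          (1 : ℝ) * ∑ f : Pair n, (w e * w f) * (pr e.1.1 e.1.2 τ * pr f.1.1 f.1.2 τ) := by
      funext τ
      rw [Finset.sum_mul_sum]
      refine Finset.sum_congr rfl fun a _ => ?_
      rw [one_mul]
      exact Finset.sum_congr rfl fun b _ => by ring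
    rw [e2, pA_lin hE Finset.univ (fun _ => (1 : ℝ)) (fun (e : Pair n) τ =>
      ∑ f : Pair n, (w e * w f) * (pr e.1.1 e.1.2 τ * pr f.1.1 f.1.2 τ))]
    refine Finset.sum_congr rfl fun e _ => ?_
    rw [one_mul, pA_lin hE Finset.univ (fun f => w e * w f)
      (fun (f : Pair n) τ => pr e.1.1 e.1.2 τ * pr f.1.1 f.1.2 τ)]
  have e3 : pA k SkS m σ J x s (fun τ => ∑ e : Pair n, w e * pr e.1.1 e.1.2 τ) z =
      ∑ e : Pair n, w e * pA k SkS m σ J x s (pr e.1.1 e.1.2) z :=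
    pA_lin hE Finset.univ w (fun (e : Pair n) τ => pr e.1.1 e.1.2 τ) z
  rw [e1, e3, pow_two, Finset.sum_mul_sum, ← Finset.sum_sub_distrib] at h
  have h2 := mul_le_mul_of_nonneg_left h hk.le
  refine le_trans (le_of_eq ?_) (h2.trans (le_of_eq ?_))
  · rw [mul_assoc]
    congr 2
    refine Finset.sum_congr rfl fun e _ => ?_
    rw [← Finset.sum_sub_distrib]
    exact Finset.sum_congr rfl fun f _ => by ring
  · rw [Finset.mul_sum]
    rw [Finset.sum_congr rfl fun e _ => Finset.mul_sum _ _ _]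
    rw [Finset.sum_comm]
    refine Finset.sum_congr rfl fun e _ => Finset.sum_congr rfl fun f _ => ?_
    have : SkS e = pr e.1.1 e.1.2 := rfl
    rw [this]
    ring

/-! ### forms on ordered pairs -/

/-- `∑ c_ij c_pq G_ijpq` for a tensor which is symmetric and vanishes on the diagonal in both
pairs of indices -/
lemma form_pairs {G : Fin n → Fin n → Fin n → Fin n → ℝ}
    (h1 : ∀ i j p q, G i j p q = G j i p q) (h2 : ∀ i p q, G i i p q = 0)
    (h3 : ∀ i j p q, G i j p q = G i j q p) (h4 : ∀ i j p, G i j p p = 0)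
    (c : Fin n × Fin n → ℝ) :
    ∑ p, ∑ r, c p * c r * G p.1 p.2 r.1 r.2 = ∑ e : Pair n, ∑ f : Pair n,
      (c (e.1.1, e.1.2) + c (e.1.2, e.1.1)) * (c (f.1.1, f.1.2) + c (f.1.2, f.1.1)) *
        G e.1.1 e.1.2 f.1.1 f.1.2 := by
  have key : ∀ T : Fin n → Fin n → ℝ, (∀ i j, T i j = T j i) → (∀ i, T i i = 0) →
      ∑ p : Fin n × Fin n, c p * T p.1 p.2 =
        ∑ e : Pair n, (c (e.1.1, e.1.2) + c (e.1.2, e.1.1)) * T e.1.1 e.1.2 := by
    intro T t1 t2
    have e1 : ∀ i j, T i j = pd2 (fun e => T e.1.1 e.1.2) i j := by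
      intro i j
      unfold pd2
      rcases lt_trichotomy i j with h | h | h
      · simp [h]
      · subst h; simp [t2]
      · simp [h, h.not_gt, t1 i j]
    rw [← sum_pd2 (fun a b => c (a, b)) fun e => T e.1.1 e.1.2, Fintype.sum_prod_type]
    exact Finset.sum_congr rfl fun i _ => Finset.sum_congr rfl fun j _ => by rw [← e1]
  have s1 : ∀ p : Fin n × Fin n, ∑ r : Fin n × Fin n, c p * c r * G p.1 p.2 r.1 r.2 =
      c p * ∑ f : Pair n, (c (f.1.1, f.1.2) + c (f.1.2, f.1.1)) * G p.1 p.2 f.1.1 f.1.2 := by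
    intro p
    rw [← key (fun a b => G p.1 p.2 a b) (fun a b => h3 _ _ _ _) (fun a => h4 _ _ _),
      Finset.mul_sum]
    exact Finset.sum_congr rfl fun r _ => by ring
  simp only [s1]
  rw [key (fun a b => ∑ f : Pair n, (c (f.1.1, f.1.2) + c (f.1.2, f.1.1)) *
    G a b f.1.1 f.1.2) (fun a b => Finset.sum_congr rfl fun f _ => by rw [h1])
    (fun a => Finset.sum_eq_zero fun f _ => by rw [h2, mul_zero])]
  refine Finset.sum_congr rfl fun e _ => ?_
  rw [Finset.mul_sum]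
  exact Finset.sum_congr rfl fun f _ => by ring

variable (S : CS n k x)

lemma T4_comm (s : ℝ) (z : Pair n → ℝ) (i j p q : Fin n) : S.T4 s z i j p q = S.T4 s z j i p q := by
  rw [S.T4_mu, S.T4_mu, pr_comm i j]

lemma T4_comm' (s : ℝ) (z : Pair n → ℝ) (i j p q : Fin n) :
    S.T4 s z i j p q = S.T4 s z i j q p := by
  rw [S.T4_mu, S.T4_mu, pr_comm p q]

lemma T4_swap (s : ℝ) (z : Pair n → ℝ) (i j p q : Fin n) :
    S.T4 s z i j p q = S.T4 s z p q i j := by
  rw [S.T4_mu, S.T4_mu]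
  exact Finset.sum_congr rfl fun σ _ => by ring

lemma T4_self (s : ℝ) (z : Pair n → ℝ) (i p q : Fin n) : S.T4 s z i i p q = S.A s z p q := by
  rw [S.T4_mu, S.A_mu]
  simp only [pr_self, one_mul]

lemma T4_self' (s : ℝ) (z : Pair n → ℝ) (i j p : Fin n) : S.T4 s z i j p p = S.A s z i j := by
  rw [S.T4_mu, S.A_mu]
  simp only [pr_self, mul_one]

/-- the covariance of the pairs -/
def Cc (s : ℝ) (z : Pair n → ℝ) : Matrix (Fin n × Fin n) (Fin n × Fin n) ℝ :=
  fun p r => S.T4 s z p.1 p.2 r.1 r.2 - S.A s z p.1 p.2 * S.A s z r.1 r.2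

lemma KK_form (s : ℝ) (z : Pair n → ℝ) (c : Fin n × Fin n → ℝ) :
    ∑ p, ∑ r, c p * c r * H693.KK S s z p r = ∑ e : Pair n, ∑ f : Pair n,
      (c (e.1.1, e.1.2) + c (e.1.2, e.1.1)) * (c (f.1.1, f.1.2) + c (f.1.2, f.1.1)) *
        S.DA s e z f.1.1 f.1.2 := by
  have h := form_pairs (G := fun i j p q => pd2 (fun e => S.DA s e z i j) p q)
    (fun i j p q => by simp only [S.DA_comm s _ z i j])
    (fun i p q => by simp [pd2, S.DA_self])
    (fun i j p q => pd2_comm _ _ _) (fun i j p => pd2_self _ _) c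
  have e1 : ∑ p, ∑ r, c p * c r * H693.KK S s z p r =
      ∑ p, ∑ r, c p * c r * pd2 (fun e => S.DA s e z p.1 p.2) r.1 r.2 :=
    Finset.sum_congr rfl fun p _ => Finset.sum_congr rfl fun r _ => by
      unfold H693.KK
      rw [pd2_comm]
  rw [e1, h]
  refine Finset.sum_congr rfl fun e _ => Finset.sum_congr rfl fun f _ => ?_
  rw [pd2_pair, DA_symm]

lemma Cc_form (s : ℝ) (z : Pair n → ℝ) (c : Fin n × Fin n → ℝ) :
    ∑ p, ∑ r, c p * c r * Cc S s z p r = ∑ e : Pair n, ∑ f : Pair n,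
      (c (e.1.1, e.1.2) + c (e.1.2, e.1.1)) * (c (f.1.1, f.1.2) + c (f.1.2, f.1.1)) *
        (S.T4 s z e.1.1 e.1.2 f.1.1 f.1.2 - S.A s z e.1.1 e.1.2 * S.A s z f.1.1 f.1.2) :=
  form_pairs (G := fun i j p q => S.T4 s z i j p q - S.A s z i j * S.A s z p q)
    (fun i j p q => by rw [T4_comm S, S.A_comm s z i j])
    (fun i p q => by rw [T4_self, S.A_self, one_mul, sub_self])
    (fun i j p q => by rw [T4_comm' S, S.A_comm s z p q])
    (fun i j p => by rw [T4_self', S.A_self, mul_one, sub_self]) c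

/-- The Hessian dominates the covariance. -/
theorem KC_psd {S : CS n k x} (hv : Kv S) {s : ℝ} (hs : 0 < s) (z : Pair n → ℝ) :
    Psd (fun p r => H693.KK S s z p r - k * x * Cc S s z p r :
      Matrix (Fin n × Fin n) (Fin n × Fin n) ℝ) := by
  refine ⟨?_, fun c => ?_⟩
  · ext p r
    have h1 : H693.KK S s z r p = H693.KK S s z p r := congrFun (congrFun (KK_T S s z) p) r
    have h2 : Cc S s z r p = Cc S s z p r := by
      unfold Cc
      rw [T4_swap, mul_comm]
    show H693.KK S s z r p - k * x * Cc S s z r p = H693.KK S s z p r - k * x * Cc S s z p r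
    rw [h1, h2]
  · have e1 : ∑ p, ∑ r, c p * c r * (H693.KK S s z p r - k * x * Cc S s z p r) =
        ∑ p, ∑ r, c p * c r * H693.KK S s z p r - k * x * ∑ p, ∑ r, c p * c r * Cc S s z p r := by
      rw [Finset.mul_sum, ← Finset.sum_sub_distrib]
      refine Finset.sum_congr rfl fun p _ => ?_
      rw [Finset.mul_sum, ← Finset.sum_sub_distrib]
      exact Finset.sum_congr rfl fun r _ => by ring
    have h := hv s hs z fun e => c (e.1.1, e.1.2) + c (e.1.2, e.1.1)
    refine le_trans ?_ (le_of_eq e1.symm)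
    rw [KK_form, Cc_form]
    linarith

/-- the touch term as a contraction of the Hessian -/
lemma Tt_KK (s : ℝ) (z : Pair n → ℝ) (M : Matrix (Fin n) (Fin n) ℝ) : Tt S s M z =
    ∑ p, ∑ r, H693.KK S s z p r * (M p.1 r.1 * S.A s z p.2 r.2) := by
  unfold Tt
  have e1 : ∀ b, ∑ e ∈ H325.row b, ∑ i, ∑ l, M i (oth b e) * S.A s z l b * S.DA s e z i l =
      ∑ j, ∑ i, ∑ l, M i j * S.A s z l b * pd2 (fun e => S.DA s e z i l) b j := by
    intro b
    rw [← sum_row_all b (G := fun j => ∑ i, ∑ l, M i j * S.A s z l b *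
      pd2 (fun e => S.DA s e z i l) b j) (by simp [pd2_self])]
    refine Finset.sum_congr rfl fun e he => Finset.sum_congr rfl fun i _ =>
      Finset.sum_congr rfl fun l _ => ?_
    rw [pd2_row _ he]
  simp only [e1, Fintype.sum_prod_type]
  rw [sum_rot4 fun b j i l => M i j * S.A s z l b * pd2 (fun e => S.DA s e z i l) b j]
  refine Finset.sum_congr rfl fun i _ => Finset.sum_congr rfl fun l _ => ?_
  rw [Finset.sum_comm]
  refine Finset.sum_congr rfl fun b _ => Finset.sum_congr rfl fun j _ => ?_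
  unfold H693.KK
  ring

/-- the quadratic form `σ' M σ` -/
def qs (M : Matrix (Fin n) (Fin n) ℝ) (σ : Fin n → ℤˣ) : ℝ := ∑ i, ∑ j, M i j * pr i j σ

lemma qs_nonneg {M : Matrix (Fin n) (Fin n) ℝ} (hM : Psd M) (σ : Fin n → ℤˣ) : 0 ≤ qs M σ := by
  have h := hM.2 fun i => H325.sp σ i
  refine h.trans (le_of_eq ?_)
  unfold qs pr
  exact Finset.sum_congr rfl fun i _ => Finset.sum_congr rfl fun j _ => by ring

/-- the contraction of the covariance -/
lemma Cc_con (s : ℝ) (z : Pair n → ℝ) (M B : Matrix (Fin n) (Fin n) ℝ) :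
    ∑ p, ∑ r, Cc S s z p r * (M p.1 r.1 * B p.2 r.2) =
      ∑ σ, S.mu s z σ * (qs M σ * qs B σ) -
        ∑ i, ∑ j, M i j * (S.A s z * B * S.A s z) i j := by
  have e0 : ∀ p r : Fin n × Fin n, Cc S s z p r * (M p.1 r.1 * B p.2 r.2) =
      (∑ σ, S.mu s z σ * (pr p.1 p.2 σ * pr r.1 r.2 σ)) * (M p.1 r.1 * B p.2 r.2) -
        S.A s z p.1 p.2 * S.A s z r.1 r.2 * (M p.1 r.1 * B p.2 r.2) := by
    intro p r
    unfold Cc
    rw [S.T4_mu]
    ring
  simp only [e0, Finset.sum_sub_distrib]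
  congr 1
  · have e1 : ∀ σ, qs M σ * qs B σ = ∑ p : Fin n × Fin n, ∑ r : Fin n × Fin n,
        pr p.1 p.2 σ * pr r.1 r.2 σ * (M p.1 r.1 * B p.2 r.2) := by
      intro σ
      simp only [Fintype.sum_prod_type]
      unfold qs
      have e2 : ∀ i l : Fin n, ∑ b, ∑ j, pr i l σ * pr b j σ * (M i b * B l j) =
          (∑ b, M i b * pr i b σ) * ∑ j, B l j * pr l j σ := by
        intro i l
        rw [Finset.sum_mul_sum]
        refine Finset.sum_congr rfl fun b _ => Finset.sum_congr rfl fun j _ => ?_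
        unfold pr
        ring
      simp only [e2]
      rw [Finset.sum_mul_sum]
    have e3 : ∀ p r : Fin n × Fin n, (∑ σ, S.mu s z σ * (pr p.1 p.2 σ * pr r.1 r.2 σ)) *
        (M p.1 r.1 * B p.2 r.2) = ∑ σ, S.mu s z σ * (pr p.1 p.2 σ * pr r.1 r.2 σ *
          (M p.1 r.1 * B p.2 r.2)) := by
      intro p r
      rw [Finset.sum_mul]
      exact Finset.sum_congr rfl fun σ _ => by ring
    simp only [e3, e1, Finset.mul_sum]
    symm
    rw [Finset.sum_comm]
    refine Finset.sum_congr rfl fun p _ => ?_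
    rw [Finset.sum_comm]
  · simp only [Fintype.sum_prod_type, Matrix.mul_apply, Finset.sum_mul, Finset.mul_sum]
    -- ∑ i l b j A i l * A b j * (M i b * B l j) = ∑ i b ∑ l j M i b * (A i l * B l j * A j b)
    refine Finset.sum_congr rfl fun i _ => ?_
    rw [Finset.sum_comm]
    refine Finset.sum_congr rfl fun b _ => ?_
    rw [Finset.sum_comm]
    refine Finset.sum_congr rfl fun j _ => Finset.sum_congr rfl fun l _ => ?_
    rw [S.A_comm s z b j]
    ring

/-- **A3b: the touch term of the row F0 dominates `k x` times the covariance of the forms.** -/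
theorem Tt_ge {S : CS n k x} (hv : Kv S) {t : ℝ} (ht : 0 < t) (u : Pair n → ℝ)
    {M : Matrix (Fin n) (Fin n) ℝ} (hM : Psd M) :
    k * x * (∑ σ, S.mu t u σ * (qs M σ * qs (S.A t u) σ) - T3 S t M u) ≤ Tt S t M u := by
  have h := (KC_psd hv ht u).sum_mul_nonneg (psd_tens hM (S.psd_A t u))
  have e1 : ∑ p, ∑ r, (H693.KK S t u p r - k * x * Cc S t u p r) * (M p.1 r.1 * S.A t u p.2 r.2) =
      ∑ p, ∑ r, H693.KK S t u p r * (M p.1 r.1 * S.A t u p.2 r.2) -
        k * x * ∑ p, ∑ r, Cc S t u p r * (M p.1 r.1 * S.A t u p.2 r.2) := by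
    rw [Finset.mul_sum, ← Finset.sum_sub_distrib]
    refine Finset.sum_congr rfl fun p _ => ?_
    rw [Finset.mul_sum, ← Finset.sum_sub_distrib]
    exact Finset.sum_congr rfl fun r _ => by ring
  have h2 : 0 ≤ ∑ p, ∑ r, (H693.KK S t u p r - k * x * Cc S t u p r) *
      (M p.1 r.1 * S.A t u p.2 r.2) := h
  rw [e1, ← Tt_KK, Cc_con] at h2
  unfold T3
  linarith

end Vale.Agent.P146.H765
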